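import Vale.Agent.P281.H708.Compare
import Vale.Agent.P299.H835.Yau

/-! P281, block KD-C0: the uniform estimate for densities in `L^a`, `a > 1`
(Guo-Phong-Tong's proof, with the Calabi-Yau theorem and Tian's `α`-invariant). -/

open scoped Manifold ContDiff Topology ComplexOrder
open Set Filter

noncomputable section

namespace Vale.Agent.P281.H708

open Vale.Agent.P272.K Vale.Agent.P272.K.N Vale.Agent.P272.K.AMP Vale.Agent.P299.H882
open Vale.Agent.P272.K.INT (intX intX_congr intX_const_mul intX_det_add_cHess)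

lemma subsingleton_of_zero {X : Type} [TopologicalSpace X] [PreconnectedSpace X]
    [ChartedSpace (Cm 0) X] : Subsingleton X := by
  have hd : DiscreteTopology X := by
    refine discreteTopology_iff_isOpen_singleton.2 fun x => ?_
    have h : (chartAt (Cm 0) x).source = {x} := by
      ext y
      constructor
      · intro hy
        exact (chartAt (Cm 0) x).injOn hy (mem_chart_source _ x) (Subsingleton.elim _ _)
      · rintro rfl
        exact mem_chart_source _ _
    rw [← h]
    exact (chartAt (Cm 0) x).open_source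
  exact PreconnectedSpace.trivial_of_discrete

variable {n : ℕ} {X : Type} [TopologicalSpace X] [T2Space X] [CompactSpace X]
  [ChartedSpace (Cm n) X] [IsManifold 𝓘(ℂ, Cm n) ω X]
  {G : Chart n X → Cm n → Matrix (Fin n) (Fin n) ℂ}

/-- the total mass of `G + i∂∂̄u` -/
lemma mass (hG : IsKahler G) {u : X → ℝ} (hu : SmoothFn (n := n) u) :
    J (addH G u) (fun _ => 1) = J G (fun _ => 1) := by
  rw [J_one, J_one]
  exact intX_det_add_cHess (INT.IsKahler.isClosedForm hG) hu

omit [T2Space X] [CompactSpace X] [IsManifold 𝓘(ℂ, Cm n) ω X] in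
lemma addH_sub_const (u : X → ℝ) (hu : SmoothFn (n := n) u) (c : ℝ) {e : Chart n X} {x : X}
    (hx : At e x) : addH G (fun y => u y - c) e (e x) = addH G u e (e x) := by
  have h := hess_sub' hu (smoothFn_const c) hx
  rw [hess_const', sub_zero] at h
  have h' : cHess (fun y => u (e.symm y) - c) (e x) = cHess (fun y => u (e.symm y)) (e x) := h
  simp only [addH, h']

/-- change of density -/
lemma J_dens_exp {u F f : X → ℝ} (hG : ∀ e x, At e x → (G e (e x)).PosDef)
    (hgu : ∀ e x, At e x → (addH G u e (e x)).PosDef)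
    (hdet : ∀ e x, At e x → Real.log (addH G u e (e x)).det.re =
      Real.log (G e (e x)).det.re + F x) :
    J (addH G u) f = J G (fun x => f x * Real.exp (F x)) := by
  unfold J
  refine intX_congr fun e x hx => ?_
  have h1 : 0 < (addH G u e (e x)).det.re := (Complex.pos_iff.1 (hgu e x hx).det_pos).1
  have h2 : 0 < (G e (e x)).det.re := (Complex.pos_iff.1 (hG e x hx).det_pos).1
  have h3 : (addH G u e (e x)).det.re = (G e (e x)).det.re * Real.exp (F x) := by
    have := congrArg Real.exp (hdet e x hx)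
    rwa [Real.exp_log h1, Real.exp_add, Real.exp_log h2] at this
  rw [hx.left_inv, h3]
  ring

/-- the moment estimate -/
lemma moment (hG : IsHermitian G) {a α K B CN L : ℝ} {N : ℕ} (hCN : 0 ≤ CN)
    (hy : ∀ x F : ℝ, 1 ≤ x → x ^ N * Real.exp F ≤ CN * Real.exp (α * x) + Real.exp (a * F))
    {F Ψ : X → ℝ} (hF : Continuous F) (hΨ : Continuous Ψ) (hΨ0 : ∀ x, Ψ x ≤ 0) (hL : 0 ≤ L)
    (hK : J G (fun x => Real.exp (-(α * Ψ x))) ≤ K)
    (hB : J G (fun x => Real.exp (a * F x)) ≤ B) :
    J G (fun x => (1 + L - Ψ x) ^ N * Real.exp (F x)) ≤ CN * Real.exp (α * (1 + L)) * K + B := by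
  have c1 : Continuous fun x => (1 + L - Ψ x) ^ N * Real.exp (F x) := by fun_prop
  have c2 : Continuous fun x => CN * Real.exp (α * (1 + L)) * Real.exp (-(α * Ψ x)) := by fun_prop
  have c3 : Continuous fun x => Real.exp (a * F x) := by fun_prop
  have h1 : J G (fun x => (1 + L - Ψ x) ^ N * Real.exp (F x)) ≤
      J G (fun x => CN * Real.exp (α * (1 + L)) * Real.exp (-(α * Ψ x)) +
        Real.exp (a * F x)) := by
    refine J_mono hG c1 (c2.add c3) fun x => ?_
    have h2 := hy (1 + L - Ψ x) (F x) (by have := hΨ0 x; linarith)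
    have h3 : Real.exp (α * (1 + L - Ψ x)) = Real.exp (α * (1 + L)) * Real.exp (-(α * Ψ x)) := by
      rw [← Real.exp_add]; ring_nf
    rw [h3] at h2
    linarith
  refine h1.trans ?_
  rw [J_add hG c2 c3, J_const_mul]
  have h4 : 0 ≤ CN * Real.exp (α * (1 + L)) := by positivity
  have := mul_le_mul_of_nonneg_left hK h4
  linarith

/-- the auxiliary Monge-Ampère equation and the comparison -/
lemma step (hG : IsKahler G) (hY : Vale.Agent.P299.H835.YauStatement n X) [Nonempty X] (hn : 0 < n)
    {U F : X → ℝ} (hU : SmoothFn (n := n) U) (hF : SmoothFn (n := n) F)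
    (hgU : ∀ e x, At e x → (addH G U e (e x)).PosDef)
    (hdet : ∀ e x, At e x → Real.log (addH G U e (e x)).det.re =
      Real.log (G e (e x)).det.re + F x) {s t : ℝ} (ht : 0 < t)
    (hA : J G (fun x => max (-U x - s) 0 * Real.exp (F x)) ≤ J G (fun _ => 1) * t ^ (n + 1)) :
    ∃ ψ : X → ℝ, SmoothFn (n := n) ψ ∧ (∀ e x, At e x → (addH G ψ e (e x)).PosDef) ∧
      (∀ x, ψ x ≤ 0) ∧ (∃ x, 0 ≤ ψ x) ∧
      ∀ x, -U x - s ≤ 2 * t * (1 + (2 * t) ^ (n + 1) - ψ x) := by
  have hGp := hG.posDef
  have hGH := hG.toIsHermitian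
  set V : ℝ := J G (fun _ => 1) with hV
  have hV0 : 0 < V := J_pos hGH
  set η : ℝ := t ^ (n + 1) with hη
  have hη0 : 0 < η := by positivity
  have hUc : Continuous U := sm_continuous hU
  have hFc : Continuous F := sm_continuous hF
  set τ : X → ℝ := fun x => tau η (-U x - s) with hτ
  have hτ0 : ∀ x, 0 < τ x := fun x => tau_pos hη0 _
  have hUs : SmoothFn (n := n) fun x => -U x - s := sm_sub (sm_neg hU) (smoothFn_const s)
  have hτs : SmoothFn (n := n) τ :=
    sm_comp (φ := tau η) (fun x => (contDiff_tau hη0 _).contDiffAt) hUs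
  have hτc : Continuous τ := sm_continuous hτs
  obtain ⟨ψ₀, c, hψ₀, hpψ₀, heq⟩ := hY G hG (fun x => Real.log (τ x) + F x)
    (sm_add (sm_log hτs hτ0) hF)
  -- the mass
  have hdet' : ∀ e x, At e x → Real.log (addH G ψ₀ e (e x)).det.re =
      Real.log (G e (e x)).det.re + (Real.log (τ x) + F x + c) := by
    intro e x hx
    have := heq e x hx
    linarith
  have hm1 : V = Real.exp c * J G (fun x => τ x * Real.exp (F x)) := by
    rw [hV, ← mass hG hψ₀, J_dens_exp hGp hpψ₀ hdet', ← J_const_mul]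
    refine J_congr fun x => ?_
    rw [Real.exp_add, Real.exp_add, Real.exp_log (hτ0 x)]
    ring
  have hm2 : V = J G (fun x => Real.exp (F x)) := by
    rw [hV, ← mass hG hU, J_dens_exp hGp hgU hdet]
    exact J_congr fun x => one_mul _
  set T : ℝ := J G (fun x => τ x * Real.exp (F x)) with hT
  have hT0 : 0 < T := by
    by_contra h
    have h1 : Real.exp c * T ≤ 0 := mul_nonpos_of_nonneg_of_nonpos (Real.exp_pos c).le (not_lt.1 h)
    linarith
  have hTle : T ≤ 2 * (V * η) := by
    have c1 : Continuous fun x => max (-U x - s) 0 * Real.exp (F x) := by fun_prop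
    have c2 : Continuous fun x => η * Real.exp (F x) := by fun_prop
    have h1 : T ≤ J G (fun x => max (-U x - s) 0 * Real.exp (F x) + η * Real.exp (F x)) := by
      refine J_mono hGH (by fun_prop) (c1.add c2) fun x => ?_
      rw [← add_mul]
      exact mul_le_mul_of_nonneg_right (tau_le hη0 _) (Real.exp_pos _).le
    rw [J_add hGH c1 c2, J_const_mul, ← hm2] at h1
    linarith
  -- normalisation
  obtain ⟨y₁, hy₁, -⟩ := exists_max hψ₀ (Classical.arbitrary X)
  have hψ : SmoothFn (n := n) fun x => ψ₀ x - ψ₀ y₁ := sm_sub hψ₀ (smoothFn_const _)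
  have hpψ : ∀ e x, At e x → (addH G (fun x => ψ₀ x - ψ₀ y₁) e (e x)).PosDef := by
    intro e x hx
    rw [addH_sub_const ψ₀ hψ₀ _ hx]
    exact hpψ₀ e x hx
  refine ⟨fun x => ψ₀ x - ψ₀ y₁, hψ, hpψ, fun x => by have := hy₁ x; linarith,
    ⟨y₁, by simp⟩, ?_⟩
  refine compare (τ := τ) (A := T / V) hU hψ hGp hgU hpψ
    (fun x => by have := hy₁ x; linarith) hn (div_pos hT0 hV0) (by positivity)
    (fun e x hx => ?_) (fun x => (le_max_left _ _).trans (le_tau _ _)) ?_
  · rw [addH_sub_const ψ₀ hψ₀ _ hx]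
    have h1 : 0 < (addH G U e (e x)).det.re := (Complex.pos_iff.1 (hgU e x hx).det_pos).1
    have h2 : 0 < (addH G ψ₀ e (e x)).det.re := (Complex.pos_iff.1 (hpψ₀ e x hx).det_pos).1
    have h3 : Real.log (addH G ψ₀ e (e x)).det.re =
        Real.log (addH G U e (e x)).det.re + (Real.log (τ x) + c) := by
      rw [hdet' e x hx, hdet e x hx]; ring
    have h4 : (addH G ψ₀ e (e x)).det.re =
        (addH G U e (e x)).det.re * (τ x * Real.exp c) := by
      have := congrArg Real.exp h3
      rwa [Real.exp_log h2, Real.exp_add, Real.exp_add, Real.exp_log h1,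
        Real.exp_log (hτ0 x)] at this
    have h5 : T / V * Real.exp c = 1 := by
      rw [hm1]; field_simp
    calc T / V * (addH G ψ₀ e (e x)).det.re =
        (T / V * Real.exp c) * (τ x * (addH G U e (e x)).det.re) := by rw [h4]; ring
      _ = _ := by rw [h5, one_mul]
  · have hn' : (1 : ℝ) ≤ n := by exact_mod_cast hn
    have hβ : (1 / 2 : ℝ) ≤ (n : ℝ) / (n + 1) := by
      rw [div_le_div_iff₀ (by norm_num) (by positivity)]; linarith
    have h1 : (1 / 2 : ℝ) ^ n ≤ ((n : ℝ) / (n + 1)) ^ n :=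
      pow_le_pow_left₀ (by norm_num) hβ n
    have h2 : T / V ≤ 2 * η := by
      rw [div_le_iff₀ hV0]; linarith
    have h3 : 2 * η = (2 * t) ^ (n + 1) * (1 / 2) ^ n := by
      rw [hη, mul_pow, pow_succ 2 n]
      have : (2 : ℝ) ^ n * (1 / 2) ^ n = 1 := by rw [← mul_pow]; norm_num
      calc 2 * t ^ (n + 1) = (2 ^ n * (1 / 2) ^ n) * (2 * t ^ (n + 1)) := by rw [this, one_mul]
        _ = _ := by ring
    rw [h3] at h2
    exact h2.trans (mul_le_mul_of_nonneg_left h1 (by positivity))

/-- the estimate for `n > 0` -/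
theorem c0_pos [PreconnectedSpace X] [Nonempty X] (hG : IsKahler G) (hn : 0 < n) (a B : ℝ)
    (ha : 1 < a) : ∃ C : ℝ, ∀ U F : X → ℝ,
    SmoothFn (n := n) U → SmoothFn (n := n) F →
    (∀ e x, At e x → (addH G U e (e x)).PosDef) →
    (∀ e x, At e x → Real.log (addH G U e (e x)).det.re =
      Real.log (G e (e x)).det.re + F x) →
    J G (fun x => Real.exp (a * F x)) ≤ B → ∀ x y, U x - U y ≤ C := by
  have hGH := hG.toIsHermitian
  obtain ⟨α, hα, K, hK⟩ := expInt (LEX.localExp n) G hGH 1 0 (X := X)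
  have hK' : ∀ Ψ : X → ℝ, SmoothFn (n := n) Ψ →
      (∀ e x, At e x → (addH G Ψ e (e x)).PosDef) → (∀ x, Ψ x ≤ 0) → (∃ x, 0 ≤ Ψ x) →
      J G (fun x => Real.exp (-(α * Ψ x))) ≤ K := by
    intro Ψ h1 h2 h3 h4
    refine hK Ψ h1 (fun e x hx => ?_) h3 (by simpa using h4)
    have := (h2 e x hx).posSemidef
    simpa only [addH, Complex.ofReal_one, one_smul] using this
  set V : ℝ := J G (fun _ => 1) with hV
  have hV0 : 0 < V := J_pos hGH
  obtain ⟨C1, hC1, hy1⟩ := young ha hα 1
  obtain ⟨C2, hC2, hy2⟩ := young ha hα (n + 2)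
  set M1 : ℝ := C1 * Real.exp (α * (1 + 0)) * K + B with hM1
  set t₀ : ℝ := 1 + |M1| / V with ht₀
  have ht₀1 : 1 ≤ t₀ := by
    have : 0 ≤ |M1| / V := by positivity
    linarith
  set L₀ : ℝ := (2 * t₀) ^ (n + 1) with hL₀
  set M2 : ℝ := C2 * Real.exp (α * (1 + L₀)) * K + B with hM2
  set C : ℝ := 2 ^ (n + 2) * |M2| / V with hC
  set S : ℝ := 2 * (1 + C * t₀ * 2 ^ ((n + 1) * (n + 1))) with hS
  -- the estimate for normalised `U`
  have main : ∀ U F : X → ℝ, SmoothFn (n := n) U → SmoothFn (n := n) F →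
      (∀ e x, At e x → (addH G U e (e x)).PosDef) →
      (∀ e x, At e x → Real.log (addH G U e (e x)).det.re =
        Real.log (G e (e x)).det.re + F x) →
      J G (fun x => Real.exp (a * F x)) ≤ B → (∀ x, U x ≤ 0) → (∃ x, 0 ≤ U x) →
      ∀ x, -U x ≤ S := by
    intro U F hU hF hgU hdet hB hU0 hU1
    have hUc : Continuous U := sm_continuous hU
    have hFc : Continuous F := sm_continuous hF
    set A : ℝ → ℝ := fun s => J G (fun x => max (-U x - s) 0 * Real.exp (F x)) / V with hA
    have hcont : ∀ s : ℝ, Continuous fun x => max (-U x - s) 0 * Real.exp (F x) := fun s => by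
      fun_prop
    have hanti : ∀ s t, 0 ≤ s → s ≤ t → A t ≤ A s := by
      intro s t _ hst
      refine div_le_div_of_nonneg_right ?_ hV0.le
      refine J_mono hGH (hcont t) (hcont s) fun x => ?_
      exact mul_le_mul_of_nonneg_right (max_le_max (by linarith) le_rfl) (Real.exp_pos _).le
    have h0 : A 0 ≤ t₀ ^ (n + 1) := by
      have h1 : J G (fun x => max (-U x - 0) 0 * Real.exp (F x)) ≤ M1 := by
        refine le_trans ?_ (moment hGH (N := 1) (L := 0) hC1 hy1 hFc hUc hU0 le_rfl
          (hK' U hU hgU hU0 hU1) hB)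
        refine J_mono hGH (hcont 0) (by fun_prop) fun x => ?_
        refine mul_le_mul_of_nonneg_right ?_ (Real.exp_pos _).le
        have := hU0 x
        rw [pow_one]
        exact max_le (by linarith) (by linarith)
      have h2 : A 0 ≤ t₀ := by
        have h3 : A 0 ≤ |M1| / V :=
          div_le_div_of_nonneg_right (h1.trans (le_abs_self _)) hV0.le
        linarith
      exact h2.trans (le_self_pow₀ ht₀1 (by omega))
    have hstep : ∀ s r t, 0 ≤ s → 0 < r → 0 < t → t ≤ t₀ → A s ≤ t ^ (n + 1) →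
        r ^ (n + 1) * A (s + r) ≤ C * t ^ (n + 1 + 1) := by
      intro s r t _ hr ht htt hAs
      have hA' : J G (fun x => max (-U x - s) 0 * Real.exp (F x)) ≤
          J G (fun _ => 1) * t ^ (n + 1) := by
        have := (div_le_iff₀ hV0).1 hAs
        rw [mul_comm]; exact this
      obtain ⟨ψ, hψ, hpψ, hψ0, hψ1, hcmp⟩ :=
        step hG Vale.Agent.P299.H835.yau hn hU hF hgU hdet ht hA'
      have hψc : Continuous ψ := sm_continuous hψ
      have hL : (2 * t) ^ (n + 1) ≤ L₀ :=
        pow_le_pow_left₀ (by positivity) (by linarith) _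
      have hL0 : 0 ≤ L₀ := by positivity
      have h1 := moment hGH (N := n + 2) hC2 hy2 hFc hψc hψ0 hL0 (hK' ψ hψ hpψ hψ0 hψ1) hB
      have h2 : r ^ (n + 1) * J G (fun x => max (-U x - (s + r)) 0 * Real.exp (F x)) ≤
          (2 * t) ^ (n + 2) * J G (fun x => (1 + L₀ - ψ x) ^ (n + 2) * Real.exp (F x)) := by
        rw [← J_const_mul, ← J_const_mul]
        refine J_mono hGH (continuous_const.mul (hcont _)) (by fun_prop) fun x => ?_
        rw [← mul_assoc, ← mul_assoc]
        refine mul_le_mul_of_nonneg_right ?_ (Real.exp_pos _).le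
        have h3 := cheb (y := -U x - s) hr (n + 1)
        have e1 : -U x - s - r = -U x - (s + r) := by ring
        rw [e1] at h3
        refine h3.trans ?_
        rw [← mul_pow]
        have h4 : 0 ≤ 1 + L₀ - ψ x := by have := hψ0 x; linarith
        refine pow_le_pow_left₀ (le_max_right _ _) (max_le ?_ (by positivity)) _
        refine (hcmp x).trans (mul_le_mul_of_nonneg_left (by linarith) (by positivity))
      have h5 : (2 * t) ^ (n + 2) * J G (fun x => (1 + L₀ - ψ x) ^ (n + 2) * Real.exp (F x)) ≤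
          (2 * t) ^ (n + 2) * |M2| :=
        mul_le_mul_of_nonneg_left (h1.trans (le_abs_self _)) (by positivity)
      have h6 := div_le_div_of_nonneg_right (h2.trans h5) hV0.le
      calc r ^ (n + 1) * A (s + r)
          = r ^ (n + 1) * J G (fun x => max (-U x - (s + r)) 0 * Real.exp (F x)) / V := by
            rw [hA]; ring
        _ ≤ _ := h6
        _ = C * t ^ (n + 1 + 1) := by rw [hC, mul_pow]; ring
    have hAS := deGiorgi (N := n + 1) (by omega) (by positivity : 0 ≤ C) (by linarith) hanti h0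
      hstep
    intro x
    by_contra hcon
    push Not at hcon
    have h7 : 0 < J G (fun x => max (-U x - S) 0 * Real.exp (F x)) := by
      refine J_pos_of hGH (hcont S) (fun y => by positivity) (x := x) ?_
      exact mul_pos (lt_max_of_lt_left (by linarith)) (Real.exp_pos _)
    have h8 : 0 < A S := div_pos h7 hV0
    exact absurd hAS (not_le.2 h8)
  refine ⟨S, fun U F hU hF hgU hdet hB x y => ?_⟩
  obtain ⟨y₁, hy₁, -⟩ := exists_max hU x
  have h1 := main (fun z => U z - U y₁) F (sm_sub hU (smoothFn_const _)) hF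
    (fun e z hz => by rw [addH_sub_const U hU _ hz]; exact hgU e z hz)
    (fun e z hz => by rw [addH_sub_const U hU _ hz]; exact hdet e z hz) hB
    (fun z => by have := hy₁ z; linarith) ⟨y₁, by simp⟩ y
  have h2 := hy₁ x
  linarith

/-- **Block KD-C0.** -/
theorem c0 {n : ℕ} {X : Type} [TopologicalSpace X] [T2Space X] [CompactSpace X]
    [ConnectedSpace X] [ChartedSpace (Cm n) X] [IsManifold 𝓘(ℂ, Cm n) ω X]
    (G : Chart n X → Cm n → Matrix (Fin n) (Fin n) ℂ) (hG : IsKahler G) (a B : ℝ) (ha : 1 < a) :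
    ∃ C : ℝ, ∀ U F : X → ℝ,
    SmoothFn (n := n) U → SmoothFn (n := n) F → IsKahler (addH G U) →
    (∀ e x, At e x → Real.log (addH G U e (e x)).det.re =
      Real.log (G e (e x)).det.re + F x) →
    J G (fun x => Real.exp (a * F x)) ≤ B → ∀ x y, U x - U y ≤ C := by
  rcases Nat.eq_zero_or_pos n with h | h
  · subst h
    have := subsingleton_of_zero (X := X)
    exact ⟨0, fun U F _ _ _ _ _ x y => by rw [Subsingleton.elim x y]; simp⟩
  · obtain ⟨C, hC⟩ := c0_pos hG h a B ha (X := X)
    exact ⟨C, fun U F hU hF hgU hdet hB => hC U F hU hF hgU.posDef hdet hB⟩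

end Vale.Agent.P281.H708
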