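import Vale.Agent.P281.H708.Real
import Vale.Agent.P299.H882.Family

/-! P281, block KD-C0: the comparison of Guo-Phong-Tong. -/

open scoped Manifold ContDiff Topology ComplexOrder
open Set Filter

noncomputable section

namespace Vale.Agent.P281.H708

open Vale.Agent.P272.K Vale.Agent.P272.K.N Vale.Agent.P272.K.AMP
open Vale.Agent.P299.H882 (J)

variable {n : ℕ} {X : Type} [TopologicalSpace X] [CompactSpace X] [ChartedSpace (Cm n) X]
  [IsManifold 𝓘(ℂ, Cm n) ω X] {G : Chart n X → Cm n → Matrix (Fin n) (Fin n) ℂ}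

/-- if `κ (G + i∂∂̄ψ) ≤ G + i∂∂̄U` then `κ^n det ≤ det` -/
lemma det_smul_le {P Q : Matrix (Fin n) (Fin n) ℂ} {κ : ℝ} (hκ : 0 < κ) (hP : P.PosDef)
    (h : (Q - (κ : ℂ) • P).PosSemidef) : κ ^ n * P.det.re ≤ Q.det.re := by
  have h1 : ((κ : ℂ) • P).PosDef := hP.smul (by exact_mod_cast hκ)
  have h2 := det_re_le h1 h
  rw [Matrix.det_smul, Fintype.card_fin] at h2
  have h3 : ((κ : ℂ) ^ n * P.det).re = κ ^ n * P.det.re := by
    rw [← Complex.ofReal_pow, Complex.re_ofReal_mul]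
  rwa [h3] at h2

omit [IsManifold 𝓘(ℂ, Cm n) ω X] in
/-- **The comparison.**  `det (G + i∂∂̄ψ) = (τ/A) det (G + i∂∂̄U)`, `τ ≥ - U - s`, `ψ ≤ 0`. -/
theorem compare {U ψ τ : X → ℝ} {A ε s : ℝ} (hU : SmoothFn (n := n) U)
    (hψ : SmoothFn (n := n) ψ) (hG : ∀ e x, At e x → (G e (e x)).PosDef)
    (hgU : ∀ e x, At e x → (addH G U e (e x)).PosDef)
    (hgψ : ∀ e x, At e x → (addH G ψ e (e x)).PosDef) (hψ0 : ∀ x, ψ x ≤ 0) (hn : 0 < n)
    (hA : 0 < A) (hε : 0 < ε)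
    (hdet : ∀ e x, At e x → A * (addH G ψ e (e x)).det.re = τ x * (addH G U e (e x)).det.re)
    (hτ : ∀ x, -U x - s ≤ τ x) (hAε : A ≤ ε ^ (n + 1) * ((n : ℝ) / (n + 1)) ^ n) (x : X) :
    -U x - s ≤ ε * (1 + ε ^ (n + 1) - ψ x) := by
  set β : ℝ := (n : ℝ) / (n + 1) with hβ
  have hn' : (0 : ℝ) < n := by exact_mod_cast hn
  have hβ0 : 0 < β := by positivity
  have hβ1 : β ≤ 1 := by rw [hβ, div_le_one (by positivity)]; linarith
  have hεβ : 0 < ε * β := by positivity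
  set Λ : ℝ := (ε * β) ^ (n + 1) with hΛ
  have hΛ0 : 0 < Λ := by positivity
  have hw : ∀ y, Λ ≤ Λ - ψ y := fun y => by have := hψ0 y; linarith
  set v : X → ℝ := fun y => (Λ - ψ y) ^ (((n + 1 : ℕ) : ℝ)⁻¹) with hv
  have hvpow : ∀ y, v y ^ (n + 1) = Λ - ψ y := fun y =>
    Real.rpow_inv_natCast_pow (hΛ0.le.trans (hw y)) (by omega)
  have hv0 : ∀ y, 0 < v y := fun y => Real.rpow_pos_of_pos (hΛ0.trans_le (hw y)) _
  have hvε : ∀ y, ε * β ≤ v y := fun y =>
    le_of_pow_le_pow_left₀ (n := n + 1) (by omega) (hv0 y).le (by rw [hvpow]; exact hw y)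
  have hUc : Continuous U := sm_continuous hU
  have hψc : Continuous ψ := sm_continuous hψ
  have hvc : Continuous v :=
    (continuous_const.sub hψc).rpow_const fun y => Or.inl (hΛ0.trans_le (hw y)).ne'
  have hHc : Continuous fun y => -U y - s - ε * v y ^ n :=
    (hUc.neg.sub continuous_const).sub (continuous_const.mul (hvc.pow n))
  obtain ⟨x₀, -, hx₀⟩ := isCompact_univ.exists_isMaxOn ⟨x, mem_univ x⟩ hHc.continuousOn
  have hmax : ∀ y, -U y - s - ε * v y ^ n ≤ -U x₀ - s - ε * v x₀ ^ n := fun y =>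
    hx₀ (mem_univ y)
  set κ : ℝ := ε * β / v x₀ with hκ
  have hκ0 : 0 < κ := div_pos hεβ (hv0 x₀)
  have hκ1 : κ ≤ 1 := by rw [hκ, div_le_one (hv0 x₀)]; exact hvε x₀
  -- the tangent function has its maximum at `x₀` too
  have hfmax : ∀ y, κ * ψ y - U y ≤ κ * ψ x₀ - U x₀ := by
    intro y
    have h1 := tangent (hv0 y).le (hv0 x₀) n
    rw [hvpow, hvpow] at h1
    have h2 := hmax y
    have h3 := mul_le_mul_of_nonneg_left h1 hε.le
    have h4 : ε * (v x₀ ^ n + (n : ℝ) / (n + 1) / v x₀ * (Λ - ψ y - (Λ - ψ x₀))) =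
        ε * v x₀ ^ n + κ * (ψ x₀ - ψ y) := by
      rw [hκ, hβ]; ring
    rw [h4] at h3
    linarith
  set e : Chart n X := chartAt (Cm n) x₀ with he
  have hx : At e x₀ := at_chartAt x₀
  have hκψ : SmoothFn (n := n) fun y => κ * ψ y := sm_const_mul κ hψ
  have hf : SmoothFn (n := n) fun y => κ * ψ y - U y := sm_sub hκψ hU
  have hloc : IsLocalMax (fun z => κ * ψ (e.symm z) - U (e.symm z)) (e x₀) :=
    isLocalMax_symm (u := fun y => κ * ψ y - U y) hx (Eventually.of_forall hfmax)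
  have h1 := neg_cHess_posSemidef (sm_two hf hx) hloc
  have h2 : cHess (fun z => κ * ψ (e.symm z) - U (e.symm z)) (e x₀) =
      (κ : ℂ) • cHess (fun z => ψ (e.symm z)) (e x₀) - cHess (fun z => U (e.symm z)) (e x₀) := by
    have := hess_sub' hκψ hU hx
    have h3 := hess_const_mul' κ hψ hx
    rw [h3] at this
    exact this
  rw [h2] at h1
  have h3 : (addH G U e (e x₀) - (κ : ℂ) • addH G ψ e (e x₀)).PosSemidef := by
    have h4 : (((1 - κ : ℝ) : ℂ) • G e (e x₀)).PosSemidef :=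
      (hG e x₀ hx).posSemidef.smul (by exact_mod_cast (sub_nonneg.2 hκ1))
    have h5 : addH G U e (e x₀) - (κ : ℂ) • addH G ψ e (e x₀) = ((1 - κ : ℝ) : ℂ) • G e (e x₀) +
        -((κ : ℂ) • cHess (fun z => ψ (e.symm z)) (e x₀) -
          cHess (fun z => U (e.symm z)) (e x₀)) := by
      simp only [addH, smul_add, Complex.ofReal_sub, Complex.ofReal_one, sub_smul, one_smul]
      abel
    rw [h5]
    exact h4.add h1
  have h4 := det_smul_le hκ0 (hgψ e x₀ hx) h3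
  have h5 : 0 < (addH G U e (e x₀)).det.re := (Complex.pos_iff.1 (hgU e x₀ hx).det_pos).1
  have h6 := hdet e x₀ hx
  -- `κ^n τ ≤ A`
  have h7 : κ ^ n * τ x₀ ≤ A := by
    have h8 : κ ^ n * τ x₀ * (addH G U e (e x₀)).det.re ≤ A * (addH G U e (e x₀)).det.re := by
      calc κ ^ n * τ x₀ * (addH G U e (e x₀)).det.re
          = A * (κ ^ n * (addH G ψ e (e x₀)).det.re) := by rw [mul_assoc, ← h6]; ring
        _ ≤ _ := mul_le_mul_of_nonneg_left h4 hA.le
    exact le_of_mul_le_mul_right h8 h5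
  have hvn : 0 < v x₀ ^ n := pow_pos (hv0 x₀) n
  have h8 : τ x₀ ≤ ε * v x₀ ^ n := by
    have h9 : (ε * β) ^ n * τ x₀ ≤ A * v x₀ ^ n := by
      have h10 := mul_le_mul_of_nonneg_right h7 hvn.le
      have h11 : κ ^ n * τ x₀ * v x₀ ^ n = (ε * β) ^ n * τ x₀ := by
        rw [hκ, div_pow]; field_simp
      rwa [h11] at h10
    have h12 : A * v x₀ ^ n ≤ (ε * β) ^ n * (ε * v x₀ ^ n) := by
      have h13 := mul_le_mul_of_nonneg_right hAε hvn.le
      have h14 : ε ^ (n + 1) * β ^ n * v x₀ ^ n = (ε * β) ^ n * (ε * v x₀ ^ n) := by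
        rw [mul_pow, pow_succ]; ring
      rwa [h14] at h13
    exact le_of_mul_le_mul_left (h9.trans h12) (pow_pos hεβ n)
  have h9 : -U x - s ≤ ε * v x ^ n := by
    have := hmax x
    have := hτ x₀
    linarith
  refine h9.trans (mul_le_mul_of_nonneg_left ?_ hε.le)
  have h10 := pow_le_one_add (hv0 x).le n
  rw [hvpow] at h10
  have h11 : Λ ≤ ε ^ (n + 1) := by
    rw [hΛ, mul_pow]
    exact mul_le_of_le_one_right (by positivity) (pow_le_one₀ hβ0.le hβ1)
  linarith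

end Vale.Agent.P281.H708
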