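import Mathlib.Analysis.SpecialFunctions.Pow.Real
import Mathlib.Analysis.SpecialFunctions.Log.Basic
import Mathlib.Analysis.SpecialFunctions.Sqrt
import Mathlib.Analysis.SpecificLimits.Basic
import Mathlib.Topology.Algebra.Order.LiminfLimsup

/-! P281, block KD-C0: real-variable lemmas (De Giorgi iteration, tangent inequality, Young). -/

open Filter Topology

noncomputable section

namespace Vale.Agent.P281.H708

/-- **De Giorgi iteration** (only natural powers). -/
theorem deGiorgi {A : ℝ → ℝ} {C t₀ : ℝ} {N : ℕ} (hN : N ≠ 0) (hC : 0 ≤ C) (ht₀ : 0 < t₀)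
    (hanti : ∀ s t, 0 ≤ s → s ≤ t → A t ≤ A s) (h0 : A 0 ≤ t₀ ^ N)
    (h : ∀ s r t, 0 ≤ s → 0 < r → 0 < t → t ≤ t₀ → A s ≤ t ^ N →
      r ^ N * A (s + r) ≤ C * t ^ (N + 1)) :
    A (2 * (1 + C * t₀ * 2 ^ (N * N))) ≤ 0 := by
  set K : ℝ := 1 + C * t₀ * 2 ^ (N * N) with hK
  have hK1 : 1 ≤ K := by
    have : 0 ≤ C * t₀ * 2 ^ (N * N) := by positivity
    linarith
  have hK0 : 0 < K := by linarith
  -- partial sums
  have hs : ∀ j : ℕ, 0 ≤ 2 * K * (1 - (1 / 2) ^ j) ∧ 2 * K * (1 - (1 / 2) ^ j) ≤ 2 * K := by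
    intro j
    have h1 : (0 : ℝ) ≤ (1 / 2) ^ j := by positivity
    have h2 : ((1 : ℝ) / 2) ^ j ≤ 1 := pow_le_one₀ (by norm_num) (by norm_num)
    constructor
    · have : 0 ≤ 1 - (1 / 2 : ℝ) ^ j := by linarith
      positivity
    · nlinarith
  have key : ∀ j : ℕ, A (2 * K * (1 - (1 / 2) ^ j)) ≤ (t₀ * (1 / 2) ^ (N * j)) ^ N := by
    intro j
    induction j with
    | zero => simpa using h0
    | succ j ih =>
      have hr : 0 < K * (1 / 2 : ℝ) ^ j := by positivity
      have ht : 0 < t₀ * (1 / 2 : ℝ) ^ (N * j) := by positivity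
      have htle : t₀ * (1 / 2 : ℝ) ^ (N * j) ≤ t₀ :=
        mul_le_of_le_one_right ht₀.le (pow_le_one₀ (by norm_num) (by norm_num))
      have h1 := h _ _ _ (hs j).1 hr ht htle ih
      have e1 : 2 * K * (1 - (1 / 2 : ℝ) ^ j) + K * (1 / 2) ^ j =
          2 * K * (1 - (1 / 2) ^ (j + 1)) := by
        rw [pow_succ]; ring
      rw [e1] at h1
      set t : ℝ := t₀ * (1 / 2 : ℝ) ^ (N * j) with htdef
      -- `C t^(N+1) ≤ r^N (t (1/2)^N)^N`
      have h2 : C * t ^ (N + 1) ≤ (K * (1 / 2 : ℝ) ^ j) ^ N * (t * (1 / 2) ^ N) ^ N := by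
        have e2 : (K * (1 / 2 : ℝ) ^ j) ^ N * (t * (1 / 2) ^ N) ^ N =
            K ^ N * (1 / 2) ^ (N * N) * (1 / 2) ^ (N * j) * t ^ N := by
          rw [mul_pow, mul_pow, ← pow_mul, ← pow_mul, mul_comm j N]; ring
        have e3 : C * t ^ (N + 1) = C * t₀ * (1 / 2) ^ (N * j) * t ^ N := by
          rw [pow_succ]
          conv_lhs => rw [htdef]
          rw [← htdef]; ring
        rw [e2, e3]
        have h3 : C * t₀ ≤ K ^ N * (1 / 2) ^ (N * N) := by
          have h4 : K ≤ K ^ N := le_self_pow₀ hK1 hN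
          have h5 : C * t₀ * 2 ^ (N * N) ≤ K ^ N := by
            refine le_trans ?_ h4
            rw [hK]; linarith
          have h6 : (0 : ℝ) < (1 / 2) ^ (N * N) := by positivity
          calc C * t₀ = C * t₀ * 2 ^ (N * N) * (1 / 2) ^ (N * N) := by
                rw [mul_assoc, ← mul_pow]; norm_num
            _ ≤ _ := mul_le_mul_of_nonneg_right h5 h6.le
        have h7 : (0 : ℝ) ≤ (1 / 2) ^ (N * j) * t ^ N := by positivity
        calc C * t₀ * (1 / 2) ^ (N * j) * t ^ N = C * t₀ * ((1 / 2) ^ (N * j) * t ^ N) := by ring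
          _ ≤ K ^ N * (1 / 2) ^ (N * N) * ((1 / 2) ^ (N * j) * t ^ N) :=
              mul_le_mul_of_nonneg_right h3 h7
          _ = _ := by ring
      have h8 : A (2 * K * (1 - (1 / 2) ^ (j + 1))) ≤ (t * (1 / 2) ^ N) ^ N :=
        le_of_mul_le_mul_left (h1.trans h2) (by positivity)
      refine h8.trans (le_of_eq ?_)
      rw [htdef, mul_assoc, ← pow_add, Nat.mul_succ]
  have h9 : ∀ j : ℕ, A (2 * K) ≤ (t₀ * (1 / 2) ^ (N * j)) ^ N := fun j =>
    (hanti _ _ (hs j).1 (hs j).2).trans (key j)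
  have h10 : Tendsto (fun j : ℕ => (t₀ * (1 / 2 : ℝ) ^ (N * j)) ^ N) atTop (𝓝 0) := by
    have h11 : Tendsto (fun j : ℕ => (1 / 2 : ℝ) ^ (N * j)) atTop (𝓝 0) :=
      (tendsto_pow_atTop_nhds_zero_of_lt_one (by norm_num) (by norm_num)).comp
        (tendsto_id.const_mul_atTop' (Nat.pos_of_ne_zero hN))
    have h12 := ((h11.const_mul t₀).pow N)
    simpa [hN] using h12
  exact ge_of_tendsto' h10 h9

/-- tangent inequality for `w ↦ w^(n/(n+1))` -/
theorem tangent {v v₀ : ℝ} (hv : 0 ≤ v) (hv₀ : 0 < v₀) (n : ℕ) :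
    v ^ n ≤ v₀ ^ n + n / (n + 1) / v₀ * (v ^ (n + 1) - v₀ ^ (n + 1)) := by
  have key : (n + 1 : ℝ) * v ^ n * v₀ ≤ v₀ ^ (n + 1) + n * v ^ (n + 1) := by
    rcases hv.eq_or_lt with h | h
    · subst h
      rcases Nat.eq_zero_or_pos n with h0 | h0
      · subst h0; simp
      · rw [zero_pow h0.ne', zero_pow (by omega)]
        simp only [mul_zero, zero_mul, add_zero]
        positivity
    · have h1 := one_add_mul_sub_le_pow (a := v₀ / v) (n := n + 1) (by
        have : 0 < v₀ / v := by positivity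
        linarith)
      have h2 : 0 < v ^ (n + 1) := by positivity
      have h3 := mul_le_mul_of_nonneg_right h1 h2.le
      rw [div_pow, div_mul_cancel₀ _ h2.ne'] at h3
      have h4 : (1 + ((n + 1 : ℕ) : ℝ) * (v₀ / v - 1)) * v ^ (n + 1) =
          (n + 1) * v ^ n * v₀ - n * v ^ (n + 1) := by
        push_cast
        rw [pow_succ]
        field_simp
        ring
      linarith
  have hn : (0 : ℝ) < n + 1 := by positivity
  have e : v₀ ^ n + n / (n + 1) / v₀ * (v ^ (n + 1) - v₀ ^ (n + 1)) =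
      (v₀ ^ (n + 1) + n * v ^ (n + 1)) / ((n + 1) * v₀) := by
    field_simp
    ring
  rw [e, le_div_iff₀ (by positivity)]
  linarith

/-- pointwise Young inequality -/
theorem young {a α : ℝ} (ha : 1 < a) (hα : 0 < α) (N : ℕ) : ∃ C : ℝ, 0 ≤ C ∧
    ∀ x F : ℝ, 1 ≤ x → x ^ N * Real.exp F ≤ C * Real.exp (α * x) + Real.exp (a * F) := by
  have ha' : 0 < a - 1 := by linarith
  set q : ℝ := N * a / (a - 1) + 1 with hq
  have hq0 : 0 < q := by positivity
  refine ⟨Real.exp (q * Real.log (q / α)), (Real.exp_pos _).le, fun x F hx => ?_⟩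
  have hx0 : 0 < x := by linarith
  have hlx : 0 ≤ Real.log x := Real.log_nonneg hx
  have e1 : x ^ N = Real.exp (N * Real.log x) := by
    rw [← Real.log_pow, Real.exp_log (by positivity)]
  rw [e1, ← Real.exp_add]
  rcases le_or_gt (N * Real.log x) ((a - 1) * F) with h | h
  · have : N * Real.log x + F ≤ a * F := by linarith
    have h1 := Real.exp_le_exp.2 this
    have h2 : 0 ≤ Real.exp (q * Real.log (q / α)) * Real.exp (α * x) := by positivity
    linarith
  · have h1 : F ≤ N * Real.log x / (a - 1) := by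
      rw [le_div_iff₀ ha']; linarith
    have h2 : N * Real.log x + F ≤ q * Real.log x := by
      have e2 : q * Real.log x = N * Real.log x + N * Real.log x / (a - 1) + Real.log x := by
        rw [hq]; field_simp; ring
      linarith
    have h3 : Real.log x ≤ α / q * x - 1 + Real.log (q / α) := by
      have h4 := Real.log_le_sub_one_of_pos (x := α / q * x) (by positivity)
      have h5 : Real.log (α / q * x) = Real.log x - Real.log (q / α) := by
        rw [Real.log_mul (by positivity) hx0.ne', Real.log_div hα.ne' hq0.ne',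
          Real.log_div hq0.ne' hα.ne']
        ring
      linarith
    have h6 : q * Real.log x ≤ α * x + q * Real.log (q / α) := by
      have h7 := mul_le_mul_of_nonneg_left h3 hq0.le
      have e3 : q * (α / q * x - 1 + Real.log (q / α)) = α * x - q + q * Real.log (q / α) := by
        field_simp
      linarith
    have h8 : Real.exp (N * Real.log x + F) ≤
        Real.exp (q * Real.log (q / α)) * Real.exp (α * x) := by
      rw [← Real.exp_add]
      exact Real.exp_le_exp.2 (by linarith)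
    have := Real.exp_pos (a * F)
    linarith

/-- the regularised positive part -/
def tau (η x : ℝ) : ℝ := (x + Real.sqrt (x ^ 2 + 4 * η ^ 2)) / 2

lemma tau_pos {η : ℝ} (hη : 0 < η) (x : ℝ) : 0 < tau η x := by
  have h : |x| < Real.sqrt (x ^ 2 + 4 * η ^ 2) := by
    rw [← Real.sqrt_sq_eq_abs]
    exact Real.sqrt_lt_sqrt (sq_nonneg _) (by nlinarith [sq_pos_of_pos hη])
  have := neg_abs_le x
  unfold tau; linarith

lemma le_tau (η x : ℝ) : max x 0 ≤ tau η x := by
  have h : |x| ≤ Real.sqrt (x ^ 2 + 4 * η ^ 2) := by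
    rw [← Real.sqrt_sq_eq_abs]
    exact Real.sqrt_le_sqrt (by nlinarith [sq_nonneg η])
  have h1 := neg_abs_le x
  have h2 := le_abs_self x
  unfold tau
  exact max_le (by linarith) (by linarith)

lemma tau_le {η : ℝ} (hη : 0 < η) (x : ℝ) : tau η x ≤ max x 0 + η := by
  have h : Real.sqrt (x ^ 2 + 4 * η ^ 2) ≤ |x| + 2 * η := by
    rw [Real.sqrt_le_left (by positivity)]
    nlinarith [abs_nonneg x, sq_abs x]
  unfold tau
  rcases le_total x 0 with h0 | h0
  · rw [max_eq_right h0]; rw [abs_of_nonpos h0] at h; linarith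
  · rw [max_eq_left h0]; rw [abs_of_nonneg h0] at h; linarith

lemma contDiff_tau {η : ℝ} (hη : 0 < η) (m : WithTop ℕ∞) : ContDiff ℝ m (tau η) := by
  unfold tau
  refine (contDiff_id.add (ContDiff.sqrt ?_ fun x => ?_)).div_const 2
  · exact (contDiff_id.pow 2).add contDiff_const
  · have := sq_nonneg x
    have := sq_pos_of_pos hη
    positivity

/-- `(y - r)⁺ r^N ≤ (y⁺)^(N+1)` -/
lemma cheb {y r : ℝ} (hr : 0 < r) (N : ℕ) : r ^ N * max (y - r) 0 ≤ max y 0 ^ (N + 1) := by
  rcases le_total y r with h | h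
  · rw [max_eq_right (by linarith : y - r ≤ 0), mul_zero]
    positivity
  · have hy : 0 < y := by linarith
    rw [max_eq_left (by linarith : 0 ≤ y - r), max_eq_left hy.le, pow_succ]
    exact mul_le_mul (pow_le_pow_left₀ hr.le h N) (by linarith) (by linarith) (by positivity)

lemma pow_le_one_add {v : ℝ} (hv : 0 ≤ v) (n : ℕ) : v ^ n ≤ 1 + v ^ (n + 1) := by
  rcases le_total v 1 with h | h
  · have := pow_le_one₀ hv h (n := n)
    have : 0 ≤ v ^ (n + 1) := by positivity
    linarith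
  · have h1 : v ^ n ≤ v ^ (n + 1) := pow_le_pow_right₀ h (Nat.le_succ n)
    linarith

end Vale.Agent.P281.H708
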